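import Vale.Agent.P167.H947.Uni.Main
import Vale.Agent.P167.H872.Asm.Top
import Vale.Agent.P167.H174.BD.Fin
import Vale.Agent.P167.H704.Shp.Fin

/-- **Random-cluster interfaces on the square lattice, `1 ≤ q < 4`**: (1) the statement of Q1 for the
parameter `q`; (2) its uniform form: convergence to chordal `SLE_κ(q)` for single lattice domains,
uniformly over compact families of marked Jordan domains, with the stability of the limit in the
domain and the existence of lattice approximations. -/
theorem Vale.Agent.Results.P167.FKInterfaceUniform.result :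
    ∀ q : ℝ, 1 ≤ q → q < 4 →
      Vale.Agent.P167.Final.Question q ∧ Vale.Agent.P167.H947.Uni.UniformLimit q := by
  intro q h1 h2
  have h : Vale.Agent.P167.Final.Question q :=
    Vale.Agent.P167.H872.Asm.final_of (fun _ h0 h1 => Vale.Agent.P167.H174.BD.b_bad h0 h1)
      Vale.Agent.P167.H704.Shp.b_shp q h1 h2
  exact ⟨h, Vale.Agent.P167.H947.Uni.uniform_of h⟩
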