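import Vale.Agent.P167.Final.Question
import Vale.Agent.P167.Final.Main

/-- **The question of Rohde and Schramm at `q = 1`**: the interfaces of critical bond percolation on
the square lattice with Dobrushin boundary conditions converge in law, in the metric `d`, to chordal
`SLE_6`, in every bounded Jordan domain and for all lattice approximations. -/
theorem Vale.Agent.Results.P167.PercolationSLE6.result : Vale.Agent.P167.Final.Question 1 :=
  Vale.Agent.P167.Final.of_E6 Vale.Agent.P167.Final.main
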