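import Vale.Agent.P167.Final.Question
import Vale.Agent.P167.H872.Asm.Top
import Vale.Agent.P167.H174.BD.Fin
import Vale.Agent.P167.H704.Shp.Fin

/-- **The question of Rohde and Schramm for `1 ≤ q < 4`**: the interfaces of the critical
random-cluster model on the square lattice with Dobrushin boundary conditions converge in law, in the
metric `d`, to chordal `SLE_κ(q)`, in every bounded Jordan domain and for all lattice
approximations. -/
theorem Vale.Agent.Results.P167.PlanarFKInterface.result :
    ∀ q : ℝ, 1 ≤ q → q < 4 → Vale.Agent.P167.Final.Question q :=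
  Vale.Agent.P167.H872.Asm.final_of (fun _ h0 h1 => Vale.Agent.P167.H174.BD.b_bad h0 h1)
    Vale.Agent.P167.H704.Shp.b_shp
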